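import Crest.Agent.X212.Rf65.Pr
import Crest.Agent.X212.Kl48.Reg

/-!
# Row 212, RF-INN (helper6): the numbers inside the wall `R`
-/

set_option autoImplicit false
set_option linter.unusedSectionVars false
noncomputable section
open scoped Manifold ContDiff Topology
open MeasureTheory Set Function Filter

namespace Crest.Agent.X212.Inn6
open An M Nd18 Rdc90 Rf65 G75 Ins26 Kl48
open An.Job (Sol)

section top
variable {X A : Type} [TopologicalSpace X] [PreconnectedSpace X] [Nonempty X] [Fintype A]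
  [DecidableEq A] {S : Sys X A} {c c₀ : Set A} {π π₀ ρ : Reg A} {l R : A} {E : Finset A} {x : X}

theorem piece_hp (hl : l ∈ c) (h : ∀ a ∈ c, a ≠ l → ¬(S.w a).band ⊆ (S.w l).sd false) :
    S.Piece c (hp l false) :=
  have e : ∀ a ∈ Sys.bd (hp l false), a = l := fun _ k => by_contra fun i => k (hp_none.2 i)
  ⟨⟨fun a k a' k' i => (i ((e a k).trans (e a' k').symm)).elim, fun a b k => by
      obtain ⟨rfl, rfl⟩ := hp_eq.1 k
      exact inter_subset_right.trans U_hp.ge⟩, fun a k => e a k ▸ hl,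
    fun a k i => h a k (hp_none.1 i.1) (i.2.1.trans U_hp.le)⟩

theorem sub_of (hc : S.Cell c) (h0 : c₀ ⊆ c) (h : S.Piece c₀ π₀) (k : S.Piece c π) (hx : x ∈ S.U π)
    (hx₀ : x ∈ S.U π₀) : S.U π ⊆ S.U π₀ := fun y hy a b e => by
  obtain ⟨b', j⟩ := k.side hc (h0 (h.bd_subset (Sys.mem_bd_of e)))
  rw [(S.w a).sd_inj (hx₀ a b e) (j hx)]
  exact j hy

variable (S c R E) in
/-- the broken walls inside `R` : at most one wall of `E` -/
structure In1 : Prop where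
  cell : S.Cell c
  mem : R ∈ c
  cmp : ∀ e ∈ E, S.Cmp R e ∧ (S.w e).sd false ⊆ (S.w R).sd false
  out : ∀ a ∈ c, a = R ∨ a ∈ E ∨ (S.w a).band ⊆ (S.w R).sd true
  one : ∀ e ∈ E, ∀ e' ∈ E, e ∈ c → e' ∈ c → e = e'

namespace In1
variable (H : In1 S c R E)
include H

theorem band {e : A} (he : e ∈ E) : (S.w R).band ⊆ (S.w e).sd true := by
  obtain ⟨_ | _, k⟩ := Wall.exists_side (H.cmp e he).1.symm
  · obtain ⟨x, hx⟩ := (S.w R).ne true
    exact nomatch (S.w R).sd_inj hx.2 ((H.cmp e he).2 (k hx.1))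
  · exact k

/-- the pieces inside `R` -/
theorem cls (h : S.Piece c ρ) (k : S.U ρ ⊆ (S.w R).sd false) :
    ρ R = some false ∨ ∃ e ∈ E, e ∈ c ∧ ρ = hp e false := by
  obtain ⟨π, hπ, e⟩ := (Sys.existsUnique_adj H.cell H.mem false).exists
  obtain ⟨x, hx⟩ := h.toIsReg.nonempty
  by_cases m : x ∈ S.U π
  · exact .inl (h.unique H.cell hπ hx m ▸ e)
  simp only [Sys.U, mem_ofPred_eq, not_forall] at m
  obtain ⟨a, b, ea, m⟩ := m
  have ha := hπ.bd_subset (Sys.mem_bd_of ea)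
  obtain rfl | he | o := H.out a ha
  · cases ea.symm.trans e
    exact (m (k hx)).elim
  · obtain ⟨y, hy⟩ := (S.w R).ne false
    obtain rfl : b = true := (S.w a).sd_inj (hπ.adj R _ e hy a b ea) (H.band he hy.1)
    obtain ⟨_ | _, j⟩ := h.side H.cell ha
    · refine .inr ⟨a, he, ha, h.unique H.cell (piece_hp ha fun a' k' ne i => ?_) hx (U_hp.ge (j hx))⟩
      obtain rfl | he' | o := H.out a' k'
      exacts [not_both (H.band he) i, ne (H.one _ he' _ he k' ha), not_both o (i.trans (H.cmp a he).2)]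
    · exact (m (j hx)).elim
  · obtain ⟨y, hy⟩ := (S.w a).ne b
    exact nomatch (S.w R).sd_inj (o hy.1) (hπ.adj a b ea hy R _ e)

/-- the pieces of the region that contains `R` -/
theorem ins (h0 : c₀ ⊆ c) (hE : ∀ e ∈ E, e ∈ c → e ∈ c₀) (h₀ : S.Piece c₀ π₀) (i₀ : R ∈ S.inn π₀)
    (hπ : S.Piece c π) (e : π R = some false) : {ρ | S.Piece c ρ ∧ S.U ρ ⊆ S.U π₀} =
      insert π {ρ | (S.Piece c ρ ∧ S.U ρ ⊆ S.U π₀) ∧ ∀ a ∈ some R, S.U ρ ⊆ (S.w a).sd true} := by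
  obtain ⟨x, hx⟩ := (S.w R).ne false
  refine Set.ext fun ρ => ⟨fun k => ?_, ?_⟩
  · obtain ⟨_ | _, j⟩ := k.1.side H.cell H.mem
    · obtain m | ⟨a, he, ha, rfl⟩ := H.cls k.1 j
      · exact .inl ((Sys.existsUnique_adj H.cell H.mem false).unique ⟨k.1, m⟩ ⟨hπ, e⟩)
      · obtain ⟨b, i⟩ := h₀.side (H.cell.mono h0) (hE a he ha)
        obtain rfl : b = true := (S.w a).sd_inj (i (i₀.2.1 hx.1)) (H.band he hx.1)
        obtain ⟨y, hy⟩ := (S.w a).ne false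
        exact nomatch (S.w a).sd_inj hy.2 (i (k.2 (U_hp.ge hy.2)))
    · exact .inr ⟨k, fun a m => Option.some.inj m ▸ j⟩
  · rintro (rfl | k)
    exacts [⟨hπ, sub_of H.cell h0 h₀ hπ (hπ.adj R _ e hx) (i₀.2.1 hx.1)⟩, k.1]

end In1
end top

variable {κ lam : Type} [Fintype κ] [Fintype lam] [DecidableEq lam] {Lm : LM κ lam}

theorem eqv_refl {Y : Mf 3} [CompactSpace Y.M] {D : YD Y.I Y.M κ (lam ⊕ lam)} {β : YC Y.M κ (lam ⊕ lam)}
    (h : Bs D β) : D.Eqv β β :=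
  ⟨_, _, Eqv71.ceq_refl h.ok.B h.ok.G ⟨h.adm.adm.ok, h.adm.adm.conn, h.adm.adm.sm, h.adm.adm.pos⟩
    isOpen_univ⟩

/-- **LEAF INN** -/
theorem inn : InnStmt Lm := by
  intro S D i Wi r n J c δ σ Adm R E b z j n₀ T H mov ado q y ha hy π hπ sub
  classical
  have := S.M.con
  obtain ⟨τ, o, σ', rfl, hτ, hσ', nc, hd, -⟩ := H.gx.cell σ H.an.mem
  have ov : J.Ov (cel τ o) c y.s := ⟨J.cl_dom hy.cell, hy.inf⟩
  have cτ : ∀ a ∈ c.1, a ∈ τ := fun a k => by_contra fun m => by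
    obtain ⟨a' | a', h1, h2⟩ := H.gx.ok.inf _ H.an.mem _ ov.1 a (hy.inf.ge k) <;> rw [H.gx.hd] at h1
    · obtain rfl : a' = a := by
        simp only [Sum.elim_inl] at h1
        split_ifs at h1
        exact Option.some.inj h1
      exact zero_ne_one ((hy.cell.1 (.inl a') false (if_neg m)).symm.trans h2)
    · exact nomatch h1
  obtain ⟨θ, ϖ, rw⟩ := H.ri.rw
  have I : In1 S.M.sys c.1 R E := ⟨c.2, H.mem,
    fun e he => ⟨(H.ri.pin e he).2.1, subset_union_left.trans (H.ri.pin e he).2.2⟩,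
    fun a k => H.ri.out σ' hσ' (hτ (cτ R H.mem)) a (hτ (cτ a k)), fun e he e' he' k k' =>
      Finset.card_le_one.1 (H.one τ o H.an.mem (cτ R H.mem)) _ (Finset.mem_inter.2 ⟨cτ e k, he⟩) _
        (Finset.mem_inter.2 ⟨cτ e' k', he'⟩)⟩
  have go : Go δ y (Pc c) := (H.an.dec _ _ q y H.an.mem
    (H.an.loc.pok _ H.an.mem c _ _ ∅ (fun _ => id) subset_rfl) ⟨hy.cell, hy.inf, hy.sol.toAdm,
      fun x hx => (hx (mem_un.2 (Cyl58.exists_pc D.W.toCaps x))).elim, fun x _ => hy.sol.D x,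
      fun x _ => hy.sol.C x, hy.sol.S, fun _ k => k.1.elim, fun a b ha _ => hy.lim a b ha,
      fun a ha b _ => hy.crit a ha b, hy.int.integrableOn⟩).1
  have g1 : ∀ ρ ∈ Pc c, Go δ y {ρ} := fun ρ k =>
    have e : EdP c {ρ} ⊆ EdP c (Pc c) := fun _ ⟨π, a, b⟩ => ⟨π, a ▸ k, b⟩
    ⟨go.br, go.O, go.adm, fun i hi => go.bs i (e hi), fun i hi => go.lim i (e hi), hy.int.integrableOn⟩
  have bs : ∀ a ∈ cylW c, ∀ b, Bs (J.xs a).D (y.β a b) := fun a k b =>
    let ⟨ρ, m⟩ := (Sys.existsUnique_adj c.2 k.1 b).exists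
    go.bs (⟨a, k⟩, b) ⟨ρ, m⟩
  let c₀ : S.M.Cl := ⟨{a ∈ c.1 | S.M.pin a}, c.2.mono (sep_subset _ _)⟩
  by_cases e : π R = some false
  swap
  · obtain ⟨a, he, m, rfl⟩ := (I.cls hπ sub).resolve_left e
    obtain ⟨sg, l2, nb, k⟩ := H.ri.cap a he
    obtain rfl : b = 1 := H.ri.bz.elim (fun h => by simp [h.2.2] at he) And.left
    have s : {ρ | S.In c (hp a false) ρ} = {hp a false} := Set.ext fun ρ =>
      ⟨fun h => let ⟨_, hx⟩ := h.1.toIsReg.nonempty; h.1.unique c.2 hπ hx (h.2 hx),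
        fun h => by obtain rfl := h; exact ⟨hπ, subset_rfl⟩⟩
    have A := H.add _ H.an.mem _ ov c₀ _ rfl ⟨hπ.toIsReg, fun a' h =>
      ⟨hπ.bd_subset h, (by_contra fun i => h (hp_none.2 i) : a' = a) ▸ (H.ri.pin a he).1⟩,
        fun a' h => hπ.not_inn a' h.1⟩ 1 sg l2 (U_hp (S := S.M.sys) ▸ nb) (fun _ => y) (fun a => y.β a true)
      fun ρ h => ⟨rfl, g1 ρ h.1, fun a' h1 b h2 => by
        obtain rfl : ρ = hp a false := s.le h
        exact (h1.2 ((hp_eq.1 h2).1 ▸ (H.ri.pin a he).1)).elim⟩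
    rw [s, show cylW c ∩ S.M.sys.inn (hp a false) = ∅ from
      eq_empty_of_forall_notMem fun a' h => hπ.not_inn a' h.1.1 h.2] at A
    simp only [finsum_mem_singleton, finsum_mem_empty, k] at A
    simpa only [if_neg e, Nat.cast_one, add_zero] using A
  obtain ⟨π₀, h₀, i₀⟩ := (Sys.existsUnique_inn c₀.2 (fun h => rw.np h.2)
    fun a h => c.2 H.mem h.1 fun k => rw.np (k ▸ h.2)).exists
  have f₀ : (↑(Finset.univ.filter (· ∈ c₀.1)) : Set S.A) = c₀.1 := by ext; simp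
  obtain ⟨w, hw, -⟩ := nc (Finset.univ.filter (· ∈ c₀.1)) (fun a h => hτ (cτ a (f₀.le h).1))
    fun a h => (f₀.le h).2
  obtain ⟨β, sg, l2, nb, -⟩ := hw π₀ (f₀.symm ▸ h₀ :)
  have ex : ∀ ρ ∈ Pc c, ∃ x : J.Obc c, (ρ = π → x = y) ∧ x.s = y.s ∧ Go δ x {ρ} ∧ ∀ a ∈ cylW c, ∀ b,
      ρ a = some b → Bs (J.xs a).D (y.β a (decide (a ≠ R))) ∧
        (J.xs a).D.Eqv (y.β a (decide (a ≠ R))) (x.β a b) := fun ρ hρ => by
    by_cases h : ∃ l ∈ cylW c, l ≠ R ∧ ρ l = some false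
    · obtain ⟨l, hl, ne, k⟩ := h
      have ls : l ∈ S.ls := ((hd (cτ l hl.1)).resolve_left hl.2).resolve_right
        fun m => ne (Finset.mem_singleton.1 m)
      obtain rfl : ρ = hp l false := (Sys.existsUnique_adj c.2 hl.1 false).unique ⟨hρ, k⟩
        ⟨piece_hp hl.1 fun a m ne => not_both (H.gx.sc.lsi l ls a ne (c.2 m hl.1 ne)), hp_self⟩
      obtain ⟨-, x, _, f, -⟩ := H.lix.2 _ H.an.mem q y ⟨l, ls⟩ ha hy hl.1
      refine ⟨x, fun m => (ne (hp_eq.1 (m ▸ e : hp l false R = some false)).1.symm).elim, f.s, f.go,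
        fun a m b k => ⟨bs a m _, ?_⟩⟩
      obtain ⟨rfl, rfl⟩ := hp_eq.1 k
      rw [decide_eq_true ne]
      exact f.eqv
    have t : ∀ a ∈ cylW c, a ≠ R → ∀ b, ρ a = some b → b = true := fun a m ne b k => by
      cases b
      exacts [(h ⟨a, m, ne, k⟩).elim, rfl]
    by_cases k : ρ R = some true
    · obtain ⟨x, x1, x2, x3, x4⟩ := mov δ y ρ true _ hρ ⟨H.mem, rw.np⟩ k (g1 ρ hρ) (bs R ⟨H.mem, rw.np⟩ false)
      refine ⟨x, fun m => (nomatch (m ▸ k : π R = some true).symm.trans e), x1, x2, fun a m b k' => ⟨bs a m _, ?_⟩⟩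
      by_cases ne : a = R
      · subst ne
        cases k.symm.trans k'
        simpa only [ne_eq, not_true, decide_false] using x3
      · rw [t a m ne b k', x4 a ne, decide_eq_true ne]
        exact eqv_refl (bs a m _)
    refine ⟨y, fun _ => rfl, rfl, g1 ρ hρ, fun a m b k' => ⟨bs a m _, ?_⟩⟩
    by_cases ne : a = R
    · subst ne
      cases b
      · simpa only [ne_eq, not_true, decide_false] using eqv_refl (bs a m false)
      · exact (k k').elim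
    · rw [t a m ne b k', decide_eq_true ne]
      exact eqv_refl (bs a m _)
  have := Nonempty.intro y
  choose! g hg using ex
  have A := H.add _ H.an.mem _ ov c₀ π₀ rfl h₀ β sg l2 nb g _ fun ρ k => (hg ρ k.1).2
  have B := ado _ H.an.mem _ hy.cell hy.inf c₀ π₀ rfl h₀ i₀ β sg l2 nb g _ fun ρ k => (hg ρ k.1.1).2
  have s : {ρ | S.In c π₀ ρ} = insert π {ρ | S.In c π₀ ρ ∧ Ou (some R) (S.M.sys.U ρ)} :=
    I.ins (sep_subset _ _) (fun a he m => ⟨m, (H.ri.pin a he).1⟩) h₀ i₀ hπ e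
  have nm : π ∉ {ρ | S.In c π₀ ρ ∧ Ou (some R) (S.M.sys.U ρ)} := fun h =>
    let ⟨_, hx⟩ := hπ.toIsReg.nonempty
    nomatch (S.M.sys.w R).sd_inj (h.2 R rfl hx) (sub hx)
  simp only [s, finsum_mem_insert _ nm (toFinite _), (hg π hπ).1 rfl] at A
  obtain ⟨A1, A2, m, A3⟩ := A
  obtain ⟨B1, B2, m', B3⟩ := B
  simp only [if_pos e]
  exact ⟨by linarith, by linarith, m - m', by push_cast; linarith⟩

end Crest.Agent.X212.Inn6
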